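import Vale.Agent.P284Z.K.K5
import Vale.Agent.P284Z.K.Bas

/-!
# P284Y, row K6': the formula of Jensen for `τ log (P + ε)`
-/

set_option linter.all false

open scoped ContDiff Topology ComplexOrder ENNReal
open Filter Set Function Metric MeasureTheory

noncomputable section

namespace Vale.Agent.P284Y.K6

open Vale.Agent.P272.K Vale.Agent.P284Z Vale.Agent.P284Z.J Vale.Agent.P284Z.K Real

theorem jen (d : ℕ) {R : ℝ} (hR : 0 < R) : ∃ c > (0 : ℝ), ∀ (a : Cm d) (P φ : Cm d → ℝ) (τ K : ℝ),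
    0 < τ → ContinuousOn P (closedBall a R) → ContinuousOn φ (closedBall a R) →
    (∀ w ∈ closedBall a R, 0 ≤ P w) →
    (∀ ε > (0 : ℝ), ∀ w ∈ closedBall a R, SP (fun w => φ w + τ * log (P w + ε)) w) →
    (∀ᶠ w in 𝓝 a, P w ≤ K * ‖w - a‖ ^ 2) → (∃ᶠ w in 𝓝 a, P w ≠ 0) →
    ∀ b < ENNReal.ofReal (c * τ), ∃ ε > (0 : ℝ), b < ∫⁻ w in ball a R,
      ENNReal.ofReal (cHess (fun w => φ w + τ * log (P w + ε)) w).trace.re := by
  obtain ⟨ρ, rfl⟩ : ∃ ρ, R = 2 * ρ := ⟨R / 2, by ring⟩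
  have hρ : 0 < ρ := by linarith
  have hm := K5.pk_pos (d := d) hρ
  set m := ∫ w : Cm d, K5.pk ρ w
  refine ⟨2 * m / ρ ^ 4, by positivity, fun a P φ τ K hτ hP hφ h0 hsp hO hne b hb => ?_⟩
  obtain ⟨M, hM⟩ := (isCompact_closedBall a _).exists_bound_of_continuousOn hP
  obtain ⟨N, hN⟩ := (isCompact_closedBall a _).exists_bound_of_continuousOn hφ
  obtain ⟨δ, hδ, hO⟩ := Metric.eventually_nhds_iff_ball.1 hO
  obtain ⟨z, hz0, hz⟩ := (hne.and_eventually (ball_mem_nhds a (by positivity : 0 < ρ / 4))).exists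
  have hz1 : z ∈ closedBall a (2 * ρ) := ball_subset_closedBall (ball_subset_ball (by linarith) hz)
  have hz2 : 0 < P z := (h0 z hz1).lt_of_ne' hz0
  set A := N + τ * log (M + 1)
  set A' := N + τ * log (|K| * ρ ^ 2 + 1)
  set K' := (A - A') * m -
    ρ ^ 2 * ((A - (φ z + τ * log (P z))) * volume.real (closedBall z (3 / 2 * ρ)))
  have t1 : Tendsto (fun T : ℝ => ENNReal.ofReal (2 * m / ρ ^ 4 * τ + K' / ρ ^ 4 * T⁻¹)) atTop
      (𝓝 (ENNReal.ofReal (2 * m / ρ ^ 4 * τ))) := ENNReal.tendsto_ofReal (by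
    simpa using (tendsto_inv_atTop_zero.const_mul (K' / ρ ^ 4)).const_add (2 * m / ρ ^ 4 * τ))
  have t2 : Tendsto (fun T : ℝ => exp (-T) * ρ) atTop (𝓝 0) := by
    simpa using tendsto_exp_neg_atTop_nhds_zero.mul_const ρ
  obtain ⟨T, h1, h2, hT⟩ := ((t1.eventually (lt_mem_nhds hb)).and
    ((t2.eventually (gt_mem_nhds hδ)).and (eventually_gt_atTop 0))).exists
  set E := exp (-T) with hE
  have hE0 : 0 < E := exp_pos _
  have hE1 : E ≤ 1 := exp_le_one_iff.2 (by linarith)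
  have hε0 : 0 < E ^ 2 := by positivity
  have hε1 : E ^ 2 ≤ 1 := pow_le_one₀ hE0.le hE1
  refine ⟨E ^ 2, hε0, h1.trans_le ((ENNReal.ofReal_le_ofReal ?_).trans (K5.mass hρ (A := A)
    (B := A' - 2 * τ * T) (fun y hy => (hsp _ hε0 y hy).sm)
    (fun y hy => (hsp _ hε0 y (ball_subset_closedBall hy)).psd) hT (mem_ball_iff_norm.1 hz)
    (fun y hy => ?_) fun w hw => ?_))⟩
  · have k : τ * log (P z) ≤ τ * log (P z + E ^ 2) := mul_le_mul_of_nonneg_left
      (log_le_log hz2 (le_add_of_nonneg_right hε0.le)) hτ.le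
    have k' := mul_le_mul_of_nonneg_left (mul_le_mul_of_nonneg_right k
      (measureReal_nonneg (μ := volume) (s := closedBall z (3 / 2 * ρ)))) (sq_nonneg ρ)
    rw [le_div_iff₀ (by positivity), show (2 * m / ρ ^ 4 * τ + K' / ρ ^ 4 * T⁻¹) * (T * ρ ^ 4) =
      2 * m * τ * T + K' by field_simp]
    simp only [K']
    linarith
  · exact add_le_add (abs_le.1 (hN y hy)).2 (mul_le_mul_of_nonneg_left (log_le_log
      (add_pos_of_nonneg_of_pos (h0 y hy) hε0) (add_le_add (abs_le.1 (hM y hy)).2 hε1)) hτ.le)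
  have k1 : ‖(E : ℂ) • w‖ ≤ E * ρ := by
    rw [norm_smul, Complex.norm_real, Real.norm_of_nonneg hE0.le]
    exact mul_le_mul_of_nonneg_left hw.le hE0.le
  have k2 := hO (a + (E : ℂ) • w) (by simpa only [add_mem_ball_iff_norm] using k1.trans_lt h2)
  rw [add_sub_cancel_left] at k2
  have k3 : a + (E : ℂ) • w ∈ closedBall a (2 * ρ) := by
    rw [add_mem_closedBall_iff_norm]
    nlinarith
  have k4 : log (P (a + (E : ℂ) • w) + E ^ 2) ≤ log (|K| * ρ ^ 2 + 1) - 2 * T := by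
    have k5 : log (|K| * ρ ^ 2 + 1) - 2 * T = log (E ^ 2 * (|K| * ρ ^ 2 + 1)) := by
      rw [log_mul (by positivity) (by positivity), log_pow, hE, log_exp]
      push_cast
      ring
    rw [k5]
    refine log_le_log (add_pos_of_nonneg_of_pos (h0 _ k3) hε0) ?_
    have k6 : K * ‖(E : ℂ) • w‖ ^ 2 ≤ |K| * (E * ρ) ^ 2 := mul_le_mul (le_abs_self K)
      (pow_le_pow_left₀ (norm_nonneg _) k1 2) (sq_nonneg _) (abs_nonneg K)
    nlinarith
  have k7 := mul_le_mul_of_nonneg_left k4 hτ.le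
  simp only [A']
  linarith [(abs_le.1 (hN _ k3)).2]

end Vale.Agent.P284Y.K6
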