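import Vale.Agent.P284Y.K6.L
import Vale.Agent.P284Y.K6.J
import Vale.Agent.P284Y.A.TubeOps
import Vale.Agent.P284Z.J.Main

/-!
# P284Y, row K6': the plaques lie in the fibres
-/

set_option linter.all false

open scoped ContDiff Topology ComplexOrder ENNReal
open Filter Set Function Metric MeasureTheory

noncomputable section

namespace Vale.Agent.P284Y.K6

open Vale.Agent.P272.K Vale.Agent.P284Z Vale.Agent.P284Z.J Vale.Agent.P284Z.K Real
open K6e (gq mp)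
open E6

variable {n : ℕ} {Γ E : Type} [Group Γ] [TopologicalSpace E] [MulAction Γ E] {C : Cov n Γ E}
  {B : FB C} {F : A.Fol C} {T : A.Tube F}

theorem cz_an {p : Cm B.d × Cm B.q} (hp : p ∈ B.Ψ.target) : AnalyticAt ℂ (cz B) p :=
  B.holΨ' p (B.tgt ▸ hp)

/-- the projection of the tube, read in the flow box -/
theorem sh_an (hU : B.Ψ.source ⊆ T.U) {p : Cm B.d × Cm B.q} (hp : p ∈ B.Ψ.target) :
    AnalyticAt ℂ (fun p => T.sh (B.Ψ.symm p)) p := by
  refine ((T.hol B.g B.a _ (cz_mem hp).1 (hU (cz_mem hp).2)).comp (cz_an hp)).congr ?_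
  filter_upwards [B.Ψ.open_target.mem_nhds hp] with p' h
  rw [comp_apply, pt_cz h]

theorem ae_box (jb : JB) (hU : B.Ψ.source ⊆ T.U) {Q : Cm F.p → Prop} (h : ∀ᵐ t, Q t) :
    ∀ᵐ t, ∀ᵐ a, (a, t) ∈ B.Ψ.target → Q (T.sh (B.Ψ.symm (a, t))) := by
  let e : Fin B.d ⊕ Fin B.q ≃ Fin n := finSumFinEquiv.trans (finCongr B.dim)
  have h1 := jb.null n _ (U B) (fun z => T.sh (C.pt B.g B.a z)) (U_open B)
    (fun z hz => T.hol _ _ z hz.1 (hU hz.2)) (fun z hz => T.surj _ _ z hz.1 (hU hz.2)) _ (ae_iff.1 h)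
  have h2 := addHaar_image_eq_zero_of_differentiableOn_of_addHaar_eq_zero volume (f := Θ B e)
    (fun z hz => ((Θ_an e z hz.1).differentiableAt.restrictScalars ℝ).differentiableWithinAt) h1
  have h3 : MeasurePreserving (gq e) volume volume :=
    MeasurePreserving.symm (gq e).symm.toHomeomorph.toMeasurableEquiv (mp e)
  have h4 : ∀ᵐ p : Cm B.d × Cm B.q, p ∈ B.Ψ.target → Q (T.sh (B.Ψ.symm p)) :=
    measure_mono_null (fun p hp => by
      obtain ⟨h5, h6⟩ := Classical.not_imp.1 hp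
      exact ⟨cz B p, ⟨cz_mem h5, by rwa [mem_setOf_eq, pt_cz h5]⟩, Θ_cz e h5⟩)
      (h3.quasiMeasurePreserving.preimage_null h2)
  exact Measure.ae_ae_of_ae_prod (p := fun p : Cm B.q × Cm B.d =>
    (p.2, p.1) ∈ B.Ψ.target → Q (T.sh (B.Ψ.symm (p.2, p.1))))
    (Measure.measurePreserving_swap.quasiMeasurePreserving.ae h4)

theorem nsq_le' {k : ℕ} (x : Cm k) : nsq x ≤ k * ‖x‖ ^ 2 := by
  simpa [nsq] using Finset.sum_le_card_nsmul Finset.univ (fun b => ‖x b‖ ^ 2) (‖x‖ ^ 2) fun b _ =>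
    pow_le_pow_left₀ (norm_nonneg _) (norm_le_pi_norm x b) 2

/-- one plaque -/
theorem plaque (jb : JB) (hU : B.Ψ.source ⊆ T.U) {R₁ : ℝ} (hR₀ : 0 < R₁)
    (hR : closedBall B.a₀ R₁ ⊆ ball 0 B.RN) {t : Cm B.q} (ht : t ∈ ball B.t₀ B.R) {M : ℝ≥0∞}
    (hM : M < ⊤) (h : ∀ (f : E → ℝ) (K : ℝ), (∀ y, C.SmAt f y) →
      (∀ γ a, ∀ z ∈ C.B 4 a, (C.om 1 f γ a z).PosSemidef) → (∀ y, |f y| ≤ K) → Jm B R₁ f t ≤ M)
    {a' : Cm B.d} (ha : a' ∈ ball B.a₀ (R₁ / 2))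
    (hS : ∀ τ > (0 : ℝ), Nonempty (A.Sesh T (T.sh (B.Ψ.symm (a', t))) τ)) :
    ∀ᶠ w in 𝓝 a', T.sh (B.Ψ.symm (w, t)) = T.sh (B.Ψ.symm (a', t)) := by
  by_contra hne
  obtain ⟨c, hc, hj⟩ := jen B.d (half_pos hR₀)
  have sub : closedBall a' (R₁ / 2) ⊆ ball B.a₀ R₁ :=
    closedBall_subset_ball' (by linarith [mem_ball.1 ha])
  have hm : ∀ w ∈ closedBall a' (R₁ / 2), (w, t) ∈ B.Ψ.target := fun w hw =>
    (box B hR Subset.rfl (p := (w, t)) ⟨ball_subset_closedBall (sub hw), ht⟩).1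
  have ha' := hm a' (mem_closedBall_self (half_pos hR₀).le)
  have hz : ∀ w ∈ closedBall a' (R₁ / 2), AnalyticAt ℂ (fun w => cz B (w, t)) w := fun w hw =>
    (cz_an (hm w hw)).comp (f := fun w => (w, t)) (analyticAt_id.prod analyticAt_const)
  have hev : ∀ w ∈ closedBall a' (R₁ / 2), ∀ᶠ w' in 𝓝 w, (w', t) ∈ B.Ψ.target := fun w hw =>
    (Continuous.prodMk_left t).continuousAt.eventually_mem (B.Ψ.open_target.mem_nhds (hm w hw))
  have hτ : 0 < (M.toReal + 1) / c := by positivity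
  obtain ⟨S⟩ := hS _ hτ
  set τ := (M.toReal + 1) / c with hτ'
  have hpos : ∀ ε > (0 : ℝ), ∀ y, 0 < S.P y + ε := fun ε hε y =>
    add_pos_of_nonneg_of_pos (S.nonneg y) hε
  have hs := (sh_an hU ha').comp (f := fun w => (w, t)) (analyticAt_id.prod analyticAt_const)
  obtain ⟨K, hK⟩ := hs.differentiableAt.isBigO_sub.bound
  have hin : ∀ᶠ w in 𝓝 a', S.P (B.Ψ.symm (w, t)) =
      S.κ * nsq (T.sh (B.Ψ.symm (w, t)) - T.sh (B.Ψ.symm (a', t))) := by
    filter_upwards [hev a' (mem_closedBall_self (half_pos hR₀).le),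
      hs.continuousAt.eventually (ball_mem_nhds _ S.r_pos)] with w h1 h2
    exact S.inn _ (hU (B.Ψ.map_target h1)) (mem_ball_iff_norm.1 h2)
  obtain ⟨ε, hε, h1⟩ := hj a' (fun w => S.P (B.Ψ.symm (w, t))) (fun w => 1 * C.ρ B.a (cz B (w, t)))
    τ (S.κ * (F.p * K ^ 2)) hτ (fun w hw => (S.cont.continuousAt.comp
      ((B.Ψ.continuousAt_symm (hm w hw)).comp (f := fun w => (w, t))
        (Continuous.prodMk_left t).continuousAt)).continuousWithinAt)
    (fun w hw => (continuousAt_const.mul ((sp_rho (cz_mem (hm w hw)).1).cont.comp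
      (f := fun w => cz B (w, t)) (hz w hw).continuousAt)).continuousWithinAt)
    (fun w _ => S.nonneg _) (fun ε hε w hw => by
      have k : SP (fun z => 1 * C.ρ B.a z + τ * log (S.P (C.pt B.g B.a z) + ε)) (cz B (w, t)) :=
        ⟨(contDiffAt_const.mul (C.ρ_sm _ _ (cz_mem (hm w hw)).1)).add
          (S.sm_log (hpos ε hε _) τ _ _ _ (cz_mem (hm w hw)).1 rfl),
          S.psd hτ hε.le _ _ (cz_mem (hm w hw)).1 (hpos ε hε _)⟩
      exact (SP.comp jb (s := fun w => cz B (w, t)) k (hz w hw)).congr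
        ((hev w hw).mono fun w' h' => by simp only [pt_cz h']))
    (by
      filter_upwards [hin, hK] with w h1 h2
      rw [h1, mul_assoc, mul_assoc, ← mul_pow]
      exact mul_le_mul_of_nonneg_left ((nsq_le' _).trans (mul_le_mul_of_nonneg_left
        (pow_le_pow_left₀ (norm_nonneg _) h2 2) (Nat.cast_nonneg _))) S.κ_pos.le)
    ((not_eventually.1 hne).mono fun w hw e => hw (S.eq_zero_iff.1 e).2) M (by
      rw [hτ', mul_div_cancel₀ _ hc.ne', ENNReal.lt_ofReal_iff_toReal_lt hM.ne]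
      exact lt_add_one _)
  refine h1.not_ge (le_trans (lintegral_mono_set (ball_subset_closedBall.trans sub))
    (h (fun y => τ * log (S.P y + ε)) (τ * max |log ε| |log (1 + ε)|)
      (fun y => S.sm_log (hpos ε hε y) τ) (fun γ a z hz => S.psd hτ hε.le γ a hz (hpos ε hε _))
      fun y => ?_))
  rw [abs_mul, abs_of_pos hτ]
  exact mul_le_mul_of_nonneg_left (abs_le_max_abs_abs (log_le_log hε (by linarith [S.nonneg y]))
    (log_le_log (hpos ε hε y) (by linarith [S.le_one y]))) hτ.le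

theorem stK6p : StK6p := by
  intro n Γ E _ _ _ _ _ C B F T hU hSe S₀ hS₀ hm hpos hB₀ hF₀ x hx y hy hxy
  borelize E
  obtain ⟨ja, jb, -, hj⟩ := stJ
  have jg : JG C := (hj n Γ E C).2
  rcases isEmpty_or_nonempty (Fin B.d) with hd | ⟨⟨l₀⟩⟩
  · rw [B.Ψ.injOn hx hy (Prod.ext (Subsingleton.elim _ _) hxy)]
  obtain ⟨S, hSS, hS, hv⟩ := hm.exists_lt_isCompact hpos
  have hS' := hSS.trans hS₀
  have hT : ∀ γ a, B.Tub S γ a ⊆ B.Tub S₀ γ a := fun γ a z hz => ⟨hz.1, hz.2.1, hSS hz.2.2⟩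
  have hm : ∀ t ∈ ball B.t₀ B.R, ‖B.a₀‖ < B.RN ∧ ‖t‖ < B.RN := fun t ht =>
    B.tgt_iff.1 (B.tgt ▸ B.sub t (ball_subset_closedBall ht))
  obtain ⟨R₁, hR₀, hR⟩ := nhds_basis_closedBall.mem_iff.1 (isOpen_ball.mem_nhds
    (mem_ball_zero_iff.2 (hm _ (mem_ball_self B.R_pos)).1))
  have tg : ∀ {a : Cm B.d} {t : Cm B.q}, a ∈ ball 0 B.RN → t ∈ ball 0 B.RN → (a, t) ∈ B.Ψ.target :=
    fun ha ht => B.tgt_iff.2 ⟨mem_ball_zero_iff.1 ha, mem_ball_zero_iff.1 ht⟩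
  have key : ∀ᵐ t ∂volume.restrict S, t ∈ ball 0 B.RN ∧ ∀ a ∈ ball 0 B.RN, ∀ a' ∈ ball 0 B.RN,
      T.sh (B.Ψ.symm (a, t)) = T.sh (B.Ψ.symm (a', t)) := by
    filter_upwards [leaf_bound ja jb jg B l₀ hR hS hS' (hB₀.imp fun G hG => ⟨hG.1, fun γ hγ a =>
      measure_mono_null (hT γ a) (hG.2 γ hγ a)⟩) fun e γ a =>
        (lintegral_mono_set (hT γ a)).trans_lt (hF₀ e γ a),
      ae_restrict_of_ae (ae_box jb hU hSe), ae_restrict_mem hS.measurableSet] with t h1 h2 ht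
    obtain ⟨M, hM, h1⟩ := h1
    have ht' : t ∈ ball 0 B.RN := mem_ball_zero_iff.2 (hm t (hS' ht)).2
    obtain ⟨a', h3, h4⟩ := Measure.exists_mem_of_measure_ne_zero_of_ae
      (measure_ball_pos volume B.a₀ (half_pos hR₀)).ne' (ae_restrict_of_ae h2)
    have h5 : a' ∈ ball 0 B.RN :=
      hR (ball_subset_closedBall (ball_subset_ball (half_le_self hR₀.le) h3))
    have h6 := plaque jb hU hR₀ hR (hS' ht) hM h1 h3
      (h4 (tg h5 ht') (T.mem _ (hU (B.Ψ.map_target (tg h5 ht')))))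
    have h7 : AnalyticOnNhd ℂ (fun a => T.sh (B.Ψ.symm (a, t))) (ball 0 B.RN) := fun a ha =>
      (sh_an hU (tg ha ht')).comp (f := fun w => (w, t)) (analyticAt_id.prod analyticAt_const)
    have h8 := h7.eqOn_of_preconnected_of_eventuallyEq analyticOnNhd_const
      (convex_ball _ _).isPreconnected h5 h6
    exact ⟨ht', fun a ha a'' ha' => (h8 ha).trans (h8 ha').symm⟩
  have kx := B.tgt_iff.1 (B.Ψ.map_source hx)
  have ky := B.tgt_iff.1 (B.Ψ.map_source hy)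
  have an : ∀ a ∈ ball 0 B.RN, ∀ b, AnalyticOnNhd ℂ (fun t => T.sh (B.Ψ.symm (a, t)) b)
      (ball 0 B.RN) := fun a ha b t ht => analyticAt_pi_iff.1 ((sh_an hU (tg ha ht)).comp
    (f := fun w => (a, w)) (analyticAt_const.prod analyticAt_id)) b
  funext b
  by_contra hne
  have h1 := ae_ne_zero volume isOpen_ball (convex_ball _ _).isPreconnected
    ((an _ (mem_ball_zero_iff.2 kx.1) b).sub (an _ (mem_ball_zero_iff.2 ky.1) b))
    ⟨(B.Ψ x).2, mem_ball_zero_iff.2 kx.2, fun e => hne (by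
      have e1 : B.Ψ.symm ((B.Ψ y).1, (B.Ψ x).2) = y := by rw [hxy]; exact B.Ψ.left_inv hy
      have e2 : B.Ψ.symm ((B.Ψ x).1, (B.Ψ x).2) = x := B.Ψ.left_inv hx
      simpa only [Pi.sub_apply, e1, e2, sub_eq_zero] using e)⟩
  obtain ⟨t, -, h2, h3⟩ := Measure.exists_mem_of_measure_ne_zero_of_ae hv.ne'
    (key.and (ae_restrict_of_ae h1))
  exact h3 h2.1 (by
    simp only [Pi.sub_apply, h2.2 _ (mem_ball_zero_iff.2 kx.1) _ (mem_ball_zero_iff.2 ky.1), sub_self])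

end Vale.Agent.P284Y.K6
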