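import Vale.Agent.P284Y.K6.Defs
import Vale.Agent.P284Z.K.K6a
import Vale.Agent.P284Z.K.K6b

/-!
# P284Y, row K6': calculus along the leaves of a flow box
-/

set_option linter.all false

open scoped ContDiff Topology ComplexOrder ENNReal
open Filter Set Function Metric MeasureTheory

noncomputable section

namespace Vale.Agent.P284Y.K6

open Vale.Agent.P272.K Vale.Agent.P284Z Vale.Agent.P284Z.J Vale.Agent.P284Z.K Real

variable {n : ℕ} {Γ E : Type} [Group Γ] [TopologicalSpace E] [MulAction Γ E] {C : Cov n Γ E}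

namespace FB
variable (T : FB C) {y : E} {a : C.I}

theorem s_cont (hy : y ∈ T.Ω) : ContinuousAt T.s y := Cov.HolOn.continuousAt C T.hol hy

theorem tgt_iff {v : Cm T.d × Cm T.q} : v ∈ T.Ψ.target ↔ ‖v.1‖ < T.RN ∧ ‖v.2‖ < T.RN := by
  rw [T.tgt, mem_ball_zero_iff, Prod.norm_def, max_lt_iff]

theorem inch' (hy : y ∈ T.Ψ.source) :
    C.co T.g T.a y ∈ C.B 2 T.a ∧ C.pt T.g T.a (C.co T.g T.a y) = y := by
  obtain ⟨z, hz, rfl⟩ := T.inch y hy
  rw [C.co_pt (C.B_mono (by norm_num) _ hz)]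
  exact ⟨hz, rfl⟩

/-- `h` vanishes on the complement of the set of nice points -/
structure Th (a : C.I) (h : Cm n → ℂ) : Prop where
  an : AnalyticOnNhd ℂ h (C.B 2 a)
  ne : ∃ z ∈ C.B 2 a, h z ≠ 0
  le : ∀ z ∈ C.B (7 / 4) a, ‖h z‖ ≤ 1
  en : ∀ z ∈ C.B 2 a, h z ≠ 0 → C.pt 1 a z ∈ T.En

theorem exists_th (a : C.I) : ∃ h, T.Th a h := by
  obtain ⟨h, h1, ⟨z₀, hz₀, h2⟩, h3⟩ := T.thin a
  obtain ⟨M, hM⟩ := (C.isCompact_cB (7 / 4) a).exists_bound_of_continuousOn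
    (h1.continuousOn.mono (C.cB_sub_B (by norm_num) a))
  have h0 : (0 : ℝ) < |M| + 1 := by positivity
  have h0' : ((|M| + 1 : ℝ) : ℂ) ≠ 0 := Complex.ofReal_ne_zero.2 h0.ne'
  refine ⟨fun z => h z / ((|M| + 1 : ℝ) : ℂ), fun z hz => (h1 z hz).div analyticAt_const h0',
    ⟨z₀, hz₀, div_ne_zero h2 h0'⟩, fun z hz => ?_, fun z hz e => h3 z hz fun e' => e ?_⟩
  · rw [norm_div, Complex.norm_real, Real.norm_of_nonneg h0.le, div_le_one h0]
    linarith [hM z (C.B_sub_cB _ a hz), le_abs_self M]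
  · rw [e', zero_div]

theorem th_ae {h : Cm n → ℂ} (hh : T.Th a h) : ∀ᵐ z, z ∈ C.B 2 a → h z ≠ 0 :=
  ae_ne_zero volume (C.isOpen_B 2 a) (C.preconn_B 2 a) hh.an hh.ne

theorem th_compact {h : Cm n → ℂ} (hh : T.Th a h) {k η : ℝ} (hk : k < 2) (hη : 0 < η) (γ : Γ) :
    IsCompact {z ∈ C.cB k a | η ≤ ‖h z‖} ∧ C.pt γ a '' {z ∈ C.cB k a | η ≤ ‖h z‖} ⊆ T.En := by
  refine ⟨(C.isCompact_cB k a).of_isClosed_subset ?_ (sep_subset _ _), ?_⟩
  · exact (hh.an.continuousOn.mono (C.cB_sub_B hk a)).norm.preimage_isClosed_of_isClosed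
      isClosed_closedBall (isClosed_Ici (a := η))
  · rintro _ ⟨z, hz, rfl⟩
    rw [C.pt_eq]
    exact T.inv γ _ (hh.en z (C.cB_sub_B hk a hz.1) (norm_pos_iff.1 (hη.trans_le hz.2)))

end FB

/-- the forms `ω, …, ω, s^* β, …, s^* β` -/
def XF (T : FB C) (e : Fin T.d ⊕ Fin T.q ≃ Fin n) : Fin n → C.Fm := blk e (C.om 1 0) (C.pbs T.s)

variable [Countable Γ] [T2Space E] [MeasurableSpace E] [BorelSpace E]

namespace A6

variable (jg : JG C) (T : FB C) (e : Fin T.d ⊕ Fin T.q ≃ Fin n)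

theorem XT_at (γ : Γ) (a : C.I) (z : Cm n) :
    (fun i => XF T e i γ a z) = blk e (cHess (C.ρ a) z) (C.pbs T.s γ a z) := by
  funext i
  unfold XF blk
  rcases e.symm i with l | b
  · exact congrArg (cHess · z) (funext fun w => by simp)
  · rfl

theorem tube_meas {S : Set (Cm T.q)} (hS : IsClosed S) : MeasurableSet {y ∈ T.Ω | T.s y ∈ S} := by
  have h := ContinuousOn.isOpen_inter_preimage (fun y hy => (T.s_cont hy).continuousWithinAt)
    T.opn hS.isOpen_compl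
  refine (congrArg MeasurableSet (Set.ext fun y => ?_)).mp (T.opn.measurableSet.diff h.measurableSet)
  simp only [mem_diff, mem_inter_iff, mem_preimage, mem_compl_iff, mem_setOf_eq]
  tauto

theorem van (ja : JA) (jb : JB) (l₀ : Fin T.d) {u : Cm T.q → ℝ} (hu : Differentiable ℝ u)
    (f : E → ℝ) {y : E} (hy : y ∈ T.Ω) :
    Xi (XF T e) (e (.inl l₀)) (C.gg (fun x => u (T.s x)) f) y = 0 := by
  have h1 := T.hol _ _ _ (ch_mem (C := C) y) ((ch_pt (C := C) y).symm ▸ hy)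
  have h2 := (jb.dz_comp n _ _ (fun t => (u t : ℂ)) _ h1
    (Complex.ofRealCLM.differentiableAt.comp _ (hu _))).1
  have h3 := fun x => (ja.vanish n _ _ (fun i => fa (XF T e i) y) (fun b => e (.inr b)) (e (.inl l₀))
    (e.injective.comp Sum.inr_injective) (fun b o => Sum.inr_ne_inl (e.injective o))
    (fun b => ⟨1, by simp only [XF, blk, Equiv.symm_apply_apply, Sum.elim_inr]; rfl⟩) x
    (P284.H650.dzbv (lc C f y) (C.ch₀ y).2.2)).1
  have h4 := h2 ▸ h3 _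
  rw [Xi_eq]
  exact mul_eq_zero_of_right _ (congrArg Complex.re h4)

include jg

theorem cf {O : Set E} (hO : IsOpen O) (h : O ⊆ T.Ω) (i : Fin n) : C.CFOn (XF T e i) O := by
  unfold XF blk
  rcases e.symm i with l | b
  · exact jg.cf_om 1 0 O hO fun y _ => Cov.SmAt.const 0 y
  · exact jg.cf_pbs _ _ O hO fun γ a z hz hy => T.hol γ a z hz (h hy)

theorem cont (k : Fin n) {H : C.Fm} (hH : C.CFOn H T.Ω) : ContinuousOn (Xi (XF T e) k H) T.Ω := by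
  have h : ∀ i, C.CFOn (update (XF T e) k H i) T.Ω := fun i => by
    by_cases hi : i = k
    · rwa [hi, update_self]
    · rw [update_of_ne hi]
      exact cf jg T e T.opn Subset.rfl i
  exact Complex.continuous_re.comp_continuousOn (jg.mD_cont _ _ T.opn (fun i => (h i).1)
    fun i γ a z hz => (continuousAt_pi.2 fun j => continuousAt_pi.2 fun l =>
      (((h i).2 γ a).sm z hz j l).continuousAt).continuousWithinAt)

theorem int {μ : Measure E} (hμ : C.Vol μ) (l₀ : Fin T.d) {S : Set (Cm T.q)} (hS : IsClosed S)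
    (hB : T.Bdd S) (hF : T.Fv S)
    (hp : ∀ y ∈ T.Ω, 0 ≤ Xi (XF T e) (e (.inl l₀)) (C.om 1 0) y) :
    Integrable (Xi (XF T e) (e (.inl l₀)) (C.om 1 0)) (μ.restrict {y ∈ T.Ω | T.s y ∈ S}) := by
  classical
  have hU := tube_meas T hS
  have h1 := (cont jg T e (e (.inl l₀))
    (jg.cf_om 1 0 _ T.opn fun y _ => Cov.SmAt.const 0 y)).mono (sep_subset _ fun y => T.s y ∈ S)
  refine ⟨(h1.aemeasurable hU).aestronglyMeasurable, (hasFiniteIntegral_iff_ofReal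
    ((ae_restrict_mem hU).mono fun y hy => hp y hy.1)).2 ?_⟩
  rw [← lintegral_indicator hU]
  have h0 := ContinuousOn.measurable_piecewise (g := 0)
    (ENNReal.continuous_ofReal.comp_continuousOn' h1) continuousOn_const hU
  rw [piecewise_eq_indicator] at h0
  refine (jg.le_sum μ hμ _ h0).trans_lt ?_
  obtain ⟨G, hG, hB⟩ := hB
  have h2 : ∀ γ a, ∫⁻ z in C.B 1 a, {y ∈ T.Ω | T.s y ∈ S}.indicator (fun y => ENNReal.ofReal
      (Xi (XF T e) (e (.inl l₀)) (C.om 1 0) y)) (C.pt γ a z) *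
        ENNReal.ofReal (cHess (C.ρ a) z).det.re ≤ ∫⁻ z in T.Tub S γ a,
          ENNReal.ofReal (md (blk e (cHess (C.ρ a) z) (C.pbs T.s γ a z))) := fun γ a => by
    refine le_trans ?_ ((setLIntegral_le_lintegral (C.B 1 a) _).trans (lintegral_indicator_le _ _))
    refine setLIntegral_mono' (C.isOpen_B 1 a).measurableSet fun z hz => ?_
    by_cases hy : C.pt γ a z ∈ {y ∈ T.Ω | T.s y ∈ S}
    · obtain ⟨h3, h4⟩ := det_real (C.ρ_pos a z (C.B14 hz))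
      have h5 : update (XF T e) (e (.inl l₀)) (C.om 1 0) = XF T e :=
        update_eq_self_iff.2 (by simp [XF, blk])
      rw [indicator_of_mem hy, indicator_of_mem (show z ∈ T.Tub S γ a from ⟨hz, hy⟩),
        ← ENNReal.ofReal_mul' h3.le, Xi, h5, jg.mD_pt _ γ a z (C.B14 hz) fun i =>
          (cf jg T e T.opn Subset.rfl i).1 _ hy.1, XT_at, h4, Complex.div_ofReal_re,
        Complex.ofReal_re, div_mul_cancel₀ _ h3.ne', md]
    · rw [indicator_of_notMem hy, zero_mul]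
      exact zero_le
  refine (ENNReal.tsum_le_tsum fun γ => Finset.sum_le_sum fun a _ => h2 γ a).trans_lt ?_
  rw [tsum_eq_sum (s := hG.toFinset) fun γ hγ => Finset.sum_eq_zero fun a _ =>
    setLIntegral_measure_zero _ _ (hB γ (by simpa using hγ) a)]
  exact ENNReal.sum_lt_top.2 fun γ _ => ENNReal.sum_lt_top.2 fun a _ => hF e γ a

theorem bdd {μ : Measure E} (hμ : C.Vol μ) {S : Set (Cm T.q)} (hS : IsClosed S) (hB : T.Bdd S) :
    ∃ K, IsCompact K ∧ ∀ᵐ y ∂μ.restrict {y ∈ T.Ω | T.s y ∈ S}, y ∈ T.Ω ∧ y ∈ K := by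
  obtain ⟨G, hG, hB⟩ := hB
  refine ⟨⋃ γ ∈ G, ⋃ a, C.pt γ a '' C.cB 1 a, hG.isCompact_biUnion fun γ _ => isCompact_iUnion
    fun a => C.isCompact_image_pt γ (C.isCompact_cB 1 a) (C.cB_sub_B (by norm_num) a),
    (ae_restrict_iff' (tube_meas T hS)).2 (ae_iff.2 ((jg.ae μ hμ _).2 fun γ a => ?_))⟩
  refine measure_eq_zero_iff_ae_notMem.2 ((C.ae_of_B1
    (Q := fun y => y ∈ {y ∈ T.Ω | T.s y ∈ S} →
      y ∈ T.Ω ∧ y ∈ ⋃ γ ∈ G, ⋃ a, C.pt γ a '' C.cB 1 a) (fun γ a => ?_) γ a).mono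
    fun z o hz => hz.2 (o hz.1))
  by_cases hγ : γ ∈ G
  · exact ae_of_all _ fun z hz hy =>
      ⟨hy.1, mem_biUnion hγ (mem_iUnion.2 ⟨a, z, C.B_sub_cB 1 a hz, rfl⟩)⟩
  · exact (measure_eq_zero_iff_ae_notMem.1 (hB γ hγ a)).mono fun z o hz hy => (o ⟨hz, hy⟩).elim

end A6

open A6

/-- K6a -/
theorem lf_of (ja : JA) (jb : JB) (jg : JG C) {μ : Measure E} (hμ : C.Vol μ) (T : FB C)
    (e : Fin T.d ⊕ Fin T.q ≃ Fin n) (l₀ : Fin T.d) {S : Set (Cm T.q)} (hS : IsCompact S)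
    (hS' : S ⊆ ball T.t₀ T.R) (hB : T.Bdd S) (hF : T.Fv S) :
    LF T.Ω T.En (μ.restrict {y ∈ T.Ω | T.s y ∈ S}) (XF T e) (e (.inl l₀)) := by
  have hU := tube_meas T hS.isClosed
  have hp : ∀ i γ a, ∀ z ∈ C.B 4 a, (XF T e i γ a z).PosSemidef := fun i γ a z hz => by
    rw [congrFun (XT_at T e γ a z) i, blk]
    rcases e.symm i with l | b
    exacts [(sp_rho hz).psd, pb_psd _ Matrix.PosSemidef.one]
  refine ⟨T.opn, fun i _ γ a z hz _ => hp i γ a z hz, bdd jg T hμ hS.isClosed hB,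
    fun A hA => le_antisymm ((Measure.restrict_le_self A).trans ((jg.ae μ hμ A).2 hA).le) zero_le,
    int jg T e hμ l₀ hS.isClosed hB hF fun y _ => w_nonneg fun i _ => hp i _ _ _ (ch_mem y),
    fun A f hf => ((cont jg T e _ (jg.cf_om A f _ T.opn hf)).mono (sep_subset _ _)).aemeasurable hU,
    fun O K f h hO hK hKO hs h0 => ?_⟩
  obtain ⟨r, hr, hSr⟩ := exists_lt_subset_ball hS.isClosed hS'
  obtain ⟨η, h1, h2, h3, h4⟩ := exists_contMDiff_support_eq_eq_one_iff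
    (modelWithCornersSelf ℝ (Cm T.q)) isOpen_ball hS.isClosed hSr
  rw [contMDiff_iff_contDiff] at h1
  have hK' := T.clos K hK (fun y hy => (hKO hy).2) r hr
  have h5 : ∀ y ∉ K ∩ {y ∈ T.Ω | ‖T.s y - T.t₀‖ ≤ r}, y ∈ T.Ω → y ∈ K → η (T.s y) = 0 :=
    fun y hy o o' => notMem_support.1 (h3 ▸ fun o'' => hy ⟨o', o, (mem_ball_iff_norm.1 o'').le⟩)
  have h6 : ∀ i : ℕ, ∀ y ∈ T.Ω, C.SmAt (fun x => η (T.s x) ^ (i + 1)) y := fun i y hy γ a z hz o =>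
    (h1.contDiffAt.comp z (an_sm (T.hol γ a z hz (o ▸ hy)))).pow _
  have h7 : ∀ i : ℕ, ∀ y ∈ T.Ω, (T.Ω.indicator fun x => η (T.s x) ^ (i + 1) * h x) =ᶠ[𝓝 y]
      fun x => η (T.s x) ^ (i + 1) * h x := fun i y hy =>
    (T.opn.eventually_mem hy).mono fun x hx => indicator_of_mem hx _
  have h8 : ∀ i : ℕ, ∀ y ∉ K ∩ {y ∈ T.Ω | ‖T.s y - T.t₀‖ ≤ r},
      T.Ω.indicator (fun x => η (T.s x) ^ (i + 1) * h x) y = 0 := fun i y hy =>
    indicator_apply_eq_zero.2 fun o => by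
      by_cases o' : y ∈ K
      · rw [h5 y hy o o', zero_pow i.succ_ne_zero, zero_mul]
      · rw [h0 y o', mul_zero]
  have h9 := fun i : ℕ => jg.ibp μ hμ (O ∩ T.Ω) _ (XF T e) (e (.inl l₀)) f _ (hO.inter T.opn) hK'
    (fun y hy => ⟨(hKO hy.1).1, hy.2.1⟩) (fun i _ => cf jg T e (hO.inter T.opn) inter_subset_right i)
    (fun y hy => ⟨(hs y hy).1, ((h6 i y hy.2).mul (hs y hy).2).congr (h7 i y hy.2)⟩) (h8 i)
  have e1 : ∀ (i : ℕ) (φ : E → ℝ), (fun y => T.Ω.indicator (fun x => η (T.s x) ^ (i + 1) * h x) y *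
      φ y) = T.Ω.indicator fun y => η (T.s y) ^ (i + 1) * (h y * φ y) := fun i φ => funext fun y => by
    rw [← indicator_mul_left]
    simp only [mul_assoc]
  have e2 : ∀ i : ℕ, Xi (XF T e) (e (.inl l₀))
      (C.gg (T.Ω.indicator fun x => η (T.s x) ^ (i + 1) * h x) f) = T.Ω.indicator fun y =>
        η (T.s y) ^ (i + 1) * Xi (XF T e) (e (.inl l₀)) (C.gg h f) y := fun i => funext fun y => by
    by_cases hy : y ∈ K ∩ {y ∈ T.Ω | ‖T.s y - T.t₀‖ ≤ r}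
    · rw [indicator_of_mem hy.2.1, Q_congr (h7 i y hy.2.1), Q_mul (h6 i y hy.2.1)
        (hs y ⟨(hKO hy.1).1, hy.2.1⟩).2, van T e ja jb l₀ (u := fun t => η t ^ (i + 1))
          ((h1.differentiable (by simp)).pow _) f hy.2.1, mul_zero, add_zero]
    · rw [Q_congr (g := fun _ => 0) ((hK'.isClosed.isOpen_compl.eventually_mem hy).mono (h8 i)),
        Q_const]
      refine (indicator_apply_eq_zero.2 fun o => ?_).symm
      by_cases o' : y ∈ K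
      · rw [h5 y hy o o', zero_pow i.succ_ne_zero, zero_mul]
      · rw [Q_congr (g := fun _ => 0) ((hK.isClosed.isOpen_compl.eventually_mem o').mono h0),
          Q_const, mul_zero]
  have k0 : ∀ y, η (T.s y) ∈ Icc (0 : ℝ) 1 := fun y => h2 ⟨_, rfl⟩
  have k1 : ∀ y, y ∈ {y ∈ T.Ω | T.s y ∈ S} ↔ y ∈ T.Ω ∧ η (T.s y) = 1 := fun y =>
    and_congr_right fun _ => h4 _
  obtain ⟨k2, k3⟩ := P284Z.K.A6.lim_pow hU k0 k1 fun i => e1 i _ ▸ (h9 i).1
  obtain ⟨k4, k5⟩ := P284Z.K.A6.lim_pow hU k0 k1 fun i => (integrable_congr (.of_eq (e2 i))).1 (h9 i).2.1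
  refine ⟨k2, k4, tendsto_nhds_unique k3 (k5.neg.congr fun i => ?_)⟩
  rw [← e2, ← e1]
  exact (h9 i).2.2.symm

variable {Ω : Set E} {ν : Measure E} {X : Fin n → C.Fm} {k : Fin n}

theorem cut_chart (jb : JB) (T : FB C) (hL : LF Ω T.En ν X k) (γ : Γ) (a : C.I) {ψ : E → ℝ}
    (hψ : ∀ y, C.SmAt ψ y) (hs : ∀ y, ψ y ≠ 0 → y ∈ C.pt γ a '' C.B 1 a) :
    ∃ τ : ℕ → E → ℝ, (∀ i y, τ i y ∈ Icc (0 : ℝ) 1) ∧ (∀ i y, C.SmAt (fun x => ψ x * τ i x) y) ∧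
      (∀ i, ∃ K, IsCompact K ∧ K ⊆ T.En ∧ ∀ y ∉ K, ψ y * τ i y = 0) ∧
      (∀ᵐ y ∂ν, Tendsto (fun i => ψ y * τ i y) atTop (𝓝 (ψ y))) ∧
      Sml ν X k fun i y => ψ y * τ i y - ψ y := by
  obtain ⟨h, hh⟩ := T.exists_th a
  have b1 : C.B (7 / 4) a ⊆ C.B 2 a := C.B_mono (by norm_num) a
  have b2 : C.B (7 / 4) a ⊆ C.B 4 a := C.B_mono (by norm_num) a
  have b3 : C.cB 1 a ⊆ C.B (7 / 4) a := C.cB_sub_B (by norm_num) a
  let l := fun y => log (‖h (C.co γ a y)‖ ^ 2)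
  have l1 : ∀ z ∈ C.B (7 / 4) a, l (C.pt γ a z) = log (‖h z‖ ^ 2) := fun z hz => by
    simp only [l, C.co_pt (b2 hz)]
  have l2 : ∀ z ∈ C.B (7 / 4) a, 1 ≤ 1 - l (C.pt γ a z) := fun z hz => by
    linarith [l1 z hz, log_nonpos (sq_nonneg _) (pow_le_one₀ (n := 2) (norm_nonneg _) (hh.le z hz))]
  have l3 : ∀ z ∈ C.B (7 / 4) a, h z ≠ 0 → C.SmAt l (C.pt γ a z) := fun z hz e =>
    .of_chart (b2 hz) ((sm_log (hh.an z (b1 hz)) e).congr_of_eventuallyEq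
      (((C.isOpen_B _ a).eventually_mem hz).mono l1))
  have d0 : ∀ t : ℝ, 1 ≤ 1 - t → ContDiffAt ℝ ∞ (fun t => -log (1 - t)) t := fun t ht =>
    ((contDiffAt_const.sub contDiffAt_id).log (one_pos.trans_le ht).ne').neg
  have d1 : deriv (fun t => -log (1 - t)) = fun t => (1 - t)⁻¹ := funext fun t => by
    rw [deriv.fun_neg, deriv_comp_const_sub, deriv_log, neg_neg]
  refine cut_one hL (O := C.pt γ a '' {z ∈ C.B (7 / 4) a | h z ≠ 0}) (f := fun y => -log (1 - l y))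
    (C.isOpen_image_pt γ ((hh.an.continuousOn.mono b1).isOpen_inter_preimage (C.isOpen_B _ a)
      isOpen_ne) fun z hz => b2 hz.1) hψ ?_ ?_ (fun c => ?_) ?_
  · rintro _ ⟨z, hz, rfl⟩
    exact (l3 z hz.1 hz.2).comp (d0 _ (l2 z hz.1))
  · rintro _ ⟨z, hz, rfl⟩ hp
    have e1 := d0 _ (l2 z hz.1)
    have e2 : Xi X k (C.om 0 l) (C.pt γ a z) = 0 := by
      have e3 := C.holOn_co γ a _ _ _ (ch_mem (C.pt γ a z))
        (by rw [ch_pt]; exact C.pt_mem (b2 hz.1) γ)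
      have e4 := (congrArg (C.co γ a) (ch_pt (C := C) (C.pt γ a z))).trans (C.co_pt (b2 hz.1) γ)
      rw [Xi_eq, fa_om0]
      exact (congrArg _ ((jb.hess_re n _ _ ((hh.an z (b1 hz.1)).comp_of_eq e3 e4)).2.2
        fun e => hz.2 ((congrArg h e4).symm.trans e))).trans (map_zero _)
    rw [L_comp (l3 z hz.1 hz.2) (e1.of_le two_le), Q_comp₂ hp (l3 z hz.1 hz.2)
      (e1.differentiableAt (by simp)), e2, d1, deriv_comp_const_sub (f := fun t : ℝ => t⁻¹),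
      deriv_inv, neg_neg, mul_zero, zero_add, inv_pow]
  · obtain ⟨e1, e2⟩ := T.th_compact hh (k := 1) (by norm_num) (exp_pos (-exp c)) γ
    refine ⟨_, C.isCompact_image_pt γ e1 fun z hz => b2 (b3 hz.1), subset_inter (image_mono fun z hz =>
      ⟨b3 hz.1, norm_pos_iff.1 ((exp_pos _).trans_le hz.2)⟩) e2, ?_⟩
    rintro _ ⟨z, hz, rfl⟩ e3 e4
    obtain ⟨z', e5, e6⟩ := hs _ e3
    obtain rfl := C.injOn_pt γ a (C.B14 e5) (b2 hz.1) e6
    have e7 := (log_le_iff_le_exp (one_pos.trans_le (l2 _ hz.1))).1 (neg_le_neg_iff.1 e4)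
    have e8 := (le_log_iff_exp_le (x := -exp c) (pow_pos (norm_pos_iff.2 hz.2) 2)).1
      (by linarith [l1 _ hz.1])
    exact ⟨_, ⟨C.B_sub_cB _ a e5, by nlinarith [hh.le _ hz.1, norm_nonneg (h z')]⟩, rfl⟩
  · have e1 := hL.ac (C.pt γ a '' {z ∈ C.B (7 / 4) a | h z = 0}) fun γ' b => measure_mono_null
      ?_ (ae_iff.1 (C.ae_tr (γ⁻¹ * γ') b a (Q := fun z => z ∈ C.B 2 a → h z ≠ 0)
        ((T.th_ae hh).mono fun _ e _ => e)))
    · refine (measure_eq_zero_iff_ae_notMem.1 e1).mono fun y hy => or_iff_not_imp_left.2 fun e => ?_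
      refine ((C.isCompact_image_pt γ (C.isCompact_cB 1 a) fun z hz =>
        b2 (b3 hz)).isClosed.isOpen_compl.eventually_mem ?_).mono fun x hx => by_contra fun e' =>
          hx (image_mono (C.B_sub_cB _ a) (hs x e'))
      rintro ⟨z, hz, rfl⟩
      exact e ⟨z, ⟨b3 hz, fun e' => hy ⟨z, ⟨b3 hz, e'⟩, rfl⟩⟩, rfl⟩
    · rintro z ⟨hz, z', hz', e⟩ e'
      obtain ⟨e2, e3⟩ := C.Ov_of_eq hz (b2 hz'.1) e.symm
      exact e' e2 (e3.symm ▸ b1 hz'.1) (e3.symm ▸ hz'.2)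

/-- K6b -/
theorem cut_of (jb : JB) (jg : JG C) (T : FB C) {Ω : Set E} {ν : Measure E} {X : Fin n → C.Fm}
    {k : Fin n} (hL : LF Ω T.En ν X k) : Cut T.En ν X k := by
  classical
  obtain ⟨ψ, h1, h2, h3, h4⟩ := jg.pu
  obtain ⟨K₀, hK₀, h0⟩ := hL.bdd
  choose S hS using h4
  obtain ⟨t, -, ht⟩ := hK₀.elim_nhds_subcover _ fun y _ => eventually_eventually_nhds.2 (hS y)
  let F := t.biUnion S ×ˢ (Finset.univ : Finset C.I)
  have s1 : ∀ p : Γ × C.I, ∀ y, C.SmAt (fun x => ψ p.2 (p.1⁻¹ • x)) y := fun p y =>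
    (h1 p.2 _).smul p.1⁻¹
  have s2 : ∀ y₀ y, ((∀ γ ∉ S y₀, ∀ a, ψ a (γ⁻¹ • y) = 0) ∧ ∑ γ ∈ S y₀, ∑ a, ψ a (γ⁻¹ • y) = 1) →
      ∀ G, S y₀ ⊆ G → ∑ γ ∈ G, ∑ a, ψ a (γ⁻¹ • y) = 1 := fun y₀ y e G hG =>
    (Finset.sum_subset hG fun γ _ hγ => Finset.sum_eq_zero fun a _ => e.1 γ hγ a).symm.trans e.2
  have s3 : ∀ y ∈ K₀, ∀ᶠ x in 𝓝 y, ∑ p ∈ F, ψ p.2 (p.1⁻¹ • x) = 1 := fun y hy => by
    obtain ⟨y₀, e1, e2⟩ := mem_iUnion₂.1 (ht hy)
    exact e2.mono fun x hx => (Finset.sum_product _ _ _).trans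
      (s2 y₀ x hx _ (Finset.subset_biUnion_of_mem S e1))
  have s4 : ∀ y, ∑ p ∈ F, ψ p.2 (p.1⁻¹ • y) ≤ 1 := fun y => (Finset.sum_product _ _ _).trans_le
    ((Finset.sum_le_sum_of_subset_of_nonneg Finset.subset_union_left fun _ _ _ =>
      Finset.sum_nonneg fun _ _ => h2 _ _).trans_eq
        (s2 y y (hS y).self_of_nhds _ Finset.subset_union_right))
  choose τ t1 t2 t3 t4 t5 using fun p : Γ × C.I => cut_chart jb T hL p.1 p.2 (s1 p) fun y hy => by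
    obtain ⟨z, hz, e⟩ := (h3 _ _).1 hy
    exact ⟨z, hz, by rw [C.pt_eq, e, smul_inv_smul]⟩
  have hp : ∀ᵐ y ∂ν, Ps X k y := h0.mono fun y hy => hL.ps hy.1
  refine ⟨fun i y => ∑ p ∈ F, ψ p.2 (p.1⁻¹ • y) * τ p i y,
    fun i y => Cov.SmAt.sum F fun p _ => t2 p i y, fun i y => ?_, fun i => ?_, ?_, ?_⟩
  · rw [abs_of_nonneg (Finset.sum_nonneg fun p _ => mul_nonneg (h2 _ _) (t1 p i y).1)]
    exact (Finset.sum_le_sum fun p _ => mul_le_of_le_one_right (h2 _ _) (t1 p i y).2).trans (s4 y)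
  · choose K k1 k2 k3 using fun p => t3 p i
    exact ⟨⋃ p ∈ F, K p, F.isCompact_biUnion fun p _ => k1 p, iUnion₂_subset fun p _ => k2 p,
      fun y hy => Finset.sum_eq_zero fun p e => k3 p y fun e' => hy (mem_biUnion e e')⟩
  · filter_upwards [h0, (eventually_all_finset F).2 fun p _ => t4 p] with y hy e
    exact (s3 y hy.2).self_of_nhds ▸ tendsto_finset_sum F e
  · obtain ⟨g, e1, e2, e3⟩ := sml_sum hp F _ (fun p i y => (t2 p i y).sub (s1 p y)) t5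
    refine ⟨g, e1, fun i => ?_, e3⟩
    filter_upwards [h0, e2 i] with y hy e
    refine (Q_congr₂ (hL.ps hy.1) ((s3 y hy.2).mono fun x hx => ?_)).trans_le e
    simp only [Finset.sum_sub_distrib, hx, add_sub_cancel]

end Vale.Agent.P284Y.K6
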