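import Vale.Agent.P284Y.A.Out

/-!
# P284Y, row K6': the plaques lie in the fibres (statement)
-/

open scoped ContDiff Topology ENNReal
open Filter Set Function Metric MeasureTheory

noncomputable section

namespace Vale.Agent.P284Y.K6

open Vale.Agent.P272.K Vale.Agent.P284Z Vale.Agent.P284Z.J

variable {n : ℕ} {Γ E : Type} [Group Γ] [TopologicalSpace E] [MulAction Γ E]

/-- A flow box `Ψ` and the tube `s : Ω → ball t₀ R` over a small ball of a slice. -/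
structure FB (C : Cov n Γ E) where
  d : ℕ
  q : ℕ
  dim : d + q = n
  En : Set E
  inv : ∀ (γ : Γ) y, y ∈ En → γ • y ∈ En
  thin : ∀ a, ∃ h : Cm n → ℂ, AnalyticOnNhd ℂ h (C.B 2 a) ∧ (∃ z ∈ C.B 2 a, h z ≠ 0) ∧
    ∀ z ∈ C.B 2 a, h z ≠ 0 → C.pt 1 a z ∈ En
  Ψ : OpenPartialHomeomorph E (Cm d × Cm q)
  RN : ℝ
  tgt : Ψ.target = ball 0 RN
  g : Γ
  a : C.I
  inch : ∀ y ∈ Ψ.source, ∃ z ∈ C.B 2 a, y = C.pt g a z
  holΨ : C.HolOn Ψ Ψ.source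
  holΨ' : AnalyticOnNhd ℂ (fun u => C.co g a (Ψ.symm u)) (ball 0 RN)
  a₀ : Cm d
  t₀ : Cm q
  R : ℝ
  R_pos : 0 < R
  sub : ∀ t ∈ closedBall t₀ R, (a₀, t) ∈ ball (0 : Cm d × Cm q) RN
  Ω : Set E
  s : E → Cm q
  opn : IsOpen Ω
  hol : C.HolOn s Ω
  base : ∀ y ∈ Ψ.source, (Ψ y).2 ∈ ball t₀ R → y ∈ Ω ∧ s y = (Ψ y).2
  clos : ∀ K : Set E, IsCompact K → K ⊆ En → ∀ r < R,
    IsCompact (K ∩ {y ∈ Ω | ‖s y - t₀‖ ≤ r})

namespace FB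
variable {C : Cov n Γ E} (T : FB C)

/-- the part of the tube over `S` in a chart -/
def Tub (S : Set (Cm T.q)) (γ : Γ) (a : C.I) : Set (Cm n) :=
  {z ∈ C.B 1 a | C.pt γ a z ∈ T.Ω ∧ T.s (C.pt γ a z) ∈ S}

/-- the tube over `S` meets essentially only finitely many sheets -/
def Bdd (S : Set (Cm T.q)) : Prop :=
  ∃ G : Set Γ, G.Finite ∧ ∀ γ ∉ G, ∀ a, volume (T.Tub S γ a) = 0

/-- the leaves over `S` have locally finite volume -/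
def Fv (S : Set (Cm T.q)) : Prop := ∀ (e : Fin T.d ⊕ Fin T.q ≃ Fin n) γ a,
  ∫⁻ z in T.Tub S γ a, ENNReal.ofReal (md (blk e (cHess (C.ρ a) z) (C.pbs T.s γ a z))) < ⊤

end FB

/-- **K6'** -/
def StK6p : Prop :=
  ∀ (n : ℕ) (Γ E : Type) [Group Γ] [Countable Γ] [TopologicalSpace E] [T2Space E] [MulAction Γ E]
    (C : Cov n Γ E) (B : FB C) (F : A.Fol C) (T : A.Tube F), B.Ψ.source ⊆ T.U →
    (∀ᵐ t, t ∈ ball T.t₁ T.r → ∀ τ > (0 : ℝ), Nonempty (A.Sesh T t τ)) →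
    ∀ S : Set (Cm B.q), S ⊆ ball B.t₀ B.R → MeasurableSet S → 0 < volume S → B.Bdd S → B.Fv S →
    ∀ x ∈ B.Ψ.source, ∀ y ∈ B.Ψ.source, (B.Ψ x).2 = (B.Ψ y).2 → T.sh x = T.sh y

end Vale.Agent.P284Y.K6
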