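import Vale.Agent.P284Y.K6.A
import Vale.Agent.P284Z.K.K6e

/-!
# P284Y, row K6': the lower bound of the mass along the leaves in a flow box
-/

set_option linter.all false

open scoped ContDiff Topology ComplexOrder ENNReal
open Filter Set Function Metric MeasureTheory

noncomputable section

namespace Vale.Agent.P284Y.K6

open Vale.Agent.P272.K Vale.Agent.P284Z Vale.Agent.P284Z.J Vale.Agent.P284Z.K Real
open K6e (gq mp alg jm_congr jm_gq trace_gq cf_cont slots gq_apply)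

variable {n : ℕ} {Γ E : Type} [Group Γ] [TopologicalSpace E] [MulAction Γ E] {C : Cov n Γ E}

namespace E6

section nc
variable (T : FB C) (e : Fin T.d ⊕ Fin T.q ≃ Fin n)

/-- the domain of the flow box in the chart -/
def U : Set (Cm n) := {z ∈ C.B 4 T.a | C.pt T.g T.a z ∈ T.Ψ.source}

/-- from the flow box to the chart -/
def cz (p : Cm T.d × Cm T.q) : Cm n := C.co T.g T.a (T.Ψ.symm p)

/-- from the chart to the flow box -/
def Θ (z : Cm n) : Cm n := gq e (T.Ψ (C.pt T.g T.a z))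

/-- the potential in the flow box -/
def u (A : ℝ) (f : E → ℝ) (p : Cm T.d × Cm T.q) : ℝ := A * C.ρ T.a (cz T p) + f (T.Ψ.symm p)

theorem U_open : IsOpen (U T) := C.isOpen_preimage_pt T.g T.a T.Ψ.open_source

variable {T} {z : Cm n} {p : Cm T.d × Cm T.q} {A : ℝ} {f : E → ℝ}

theorem pt_cz (hp : p ∈ T.Ψ.target) : C.pt T.g T.a (cz T p) = T.Ψ.symm p :=
  (T.inch' (T.Ψ.map_target hp)).2

theorem cz_mem (hp : p ∈ T.Ψ.target) : cz T p ∈ U T :=
  ⟨C.B_mono (by norm_num) _ (T.inch' (T.Ψ.map_target hp)).1, pt_cz hp ▸ T.Ψ.map_target hp⟩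

theorem cz_Ψ (hz : z ∈ U T) : cz T (T.Ψ (C.pt T.g T.a z)) = z := by
  rw [cz, T.Ψ.left_inv hz.2, C.co_pt hz.1]

theorem Θ_an : AnalyticOnNhd ℂ (Θ T e) (U T) := fun z hz =>
  ((gq e).analyticAt _).comp (T.holΨ T.g T.a z hz.1 hz.2)

theorem Θ_inj : InjOn (Θ T e) (U T) := fun z hz w hw h => by
  rw [← cz_Ψ hz, ← cz_Ψ hw, (gq e).injective h]

theorem Θ_cz (hp : p ∈ T.Ψ.target) : Θ T e (cz T p) = gq e p := by
  rw [Θ, pt_cz hp, T.Ψ.right_inv hp]

theorem u_sm (hp : p ∈ T.Ψ.target) (hf : C.SmAt f (T.Ψ.symm p)) :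
    ContDiffAt ℝ ∞ (fun x => u T A f ((gq e).symm x)) (gq e p) := by
  have h1 : AnalyticAt ℂ (fun x => cz T ((gq e).symm x)) (gq e p) :=
    (T.holΨ' p (T.tgt ▸ hp)).comp_of_eq ((gq e).symm.analyticAt _) ((gq e).symm_apply_apply p)
  have h2 : ContDiffAt ℝ ∞ (fun w => A * C.ρ T.a w + f (C.pt T.g T.a w))
      (cz T ((gq e).symm (gq e p))) := by
    rw [(gq e).symm_apply_apply]
    exact (contDiffAt_const.mul (C.ρ_sm _ _ (cz_mem hp).1)).add
      (hf _ _ _ (cz_mem hp).1 (pt_cz hp))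
  refine (h2.comp (gq e p) (an_sm h1)).congr_of_eventuallyEq ?_
  have h3 : ∀ᶠ x in 𝓝 (gq e p), (gq e).symm x ∈ T.Ψ.target :=
    (gq e).symm.continuous.continuousAt.eventually_mem (T.Ψ.open_target.mem_nhds (by simpa using hp))
  filter_upwards [h3] with x hx
  rw [comp_apply, pt_cz hx, u]

theorem om_eq (jb : JB) (hz : z ∈ U T) (hf : C.SmAt f (C.pt T.g T.a z)) :
    C.om A f T.g T.a z =
      pb (jm (Θ T e) z) (cHess (fun x => u T A f ((gq e).symm x)) (Θ T e z)) := by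
  rw [← jb.hess_comp n n _ _ z (Θ_an e z hz)
    (two (u_sm e (T.Ψ.map_source hz.2) (by rwa [T.Ψ.left_inv hz.2])))]
  refine C2.cHess_congr ?_
  filter_upwards [(U_open T).mem_nhds hz] with w hw
  rw [Θ, (gq e).symm_apply_apply, u, cz_Ψ hw, T.Ψ.left_inv hw.2]

theorem tr_eq (jb : JB) (hp : p ∈ T.Ψ.target) (hf : C.SmAt f (T.Ψ.symm p)) :
    (cHess (fun w => u T A f (w, p.2)) p.1).trace =
      ∑ l, cHess (fun x => u T A f ((gq e).symm x)) (gq e p) (e (.inl l)) (e (.inl l)) := by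
  simpa only [ContinuousLinearEquiv.symm_apply_apply] using trace_gq e jb (two (u_sm e hp hf))

end nc

variable (T : FB C) (e : Fin T.d ⊕ Fin T.q ≃ Fin n)
  {R₁ : ℝ} {S : Set (Cm T.q)} {A : ℝ} {f : E → ℝ}

theorem box (hR : closedBall T.a₀ R₁ ⊆ ball 0 T.RN) (hS : S ⊆ ball T.t₀ T.R)
    {p : Cm T.d × Cm T.q} (hp : p ∈ closedBall T.a₀ R₁ ×ˢ S) :
    p ∈ T.Ψ.target ∧ T.Ψ.symm p ∈ T.Ω := by
  have h0 : (T.a₀, p.2) ∈ T.Ψ.target := T.tgt ▸ T.sub _ (ball_subset_closedBall (hS hp.2))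
  have h1 : p ∈ T.Ψ.target :=
    T.tgt_iff.2 ⟨mem_ball_zero_iff.1 (hR hp.1), (T.tgt_iff.1 h0).2⟩
  exact ⟨h1, (T.base _ (T.Ψ.map_target h1) (by rw [T.Ψ.right_inv h1]; exact hS hp.2)).1⟩

theorem pbs_eq {z : Cm n} (hz : z ∈ U T) (h : (T.Ψ (C.pt T.g T.a z)).2 ∈ ball T.t₀ T.R) :
    C.pbs T.s T.g T.a z = pb (jm (fun w => (T.Ψ (C.pt T.g T.a w)).2) z) 1 := by
  rw [Cov.pbs, jm_congr]
  filter_upwards [(U_open T).mem_nhds hz,
    (T.holΨ _ _ z hz.1 hz.2).continuousAt.snd.eventually_mem (isOpen_ball.mem_nhds h)] with w h1 h2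
  exact (T.base _ h1.2 h2).2

variable [MeasurableSpace E]

theorem cf_X (jg : JG C) (k : Fin n) (hf : ∀ y ∈ T.Ω, C.SmAt f y) (i : Fin n) :
    C.CFOn (update (XF T e) k (C.om A f) i) T.Ω :=
  slots e (fun M (_ : Unit) => C.CFOn M T.Ω) (A' := ()) (B' := ()) (H' := ()) k
    (jg.cf_om 1 0 _ T.opn fun y _ => Cov.SmAt.const 0 y) (jg.cf_pbs _ _ _ T.opn T.hol)
    (jg.cf_om A f _ T.opn hf) i

/-- the pointwise inequality -/
theorem ptw (ja : JA) (jb : JB) (jg : JG C) (l₀ : Fin T.d) (hR : closedBall T.a₀ R₁ ⊆ ball 0 T.RN)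
    (hS : IsCompact S) (hS' : S ⊆ ball T.t₀ T.R) : ∃ c > (0 : ℝ), ∀ (A : ℝ) (f : E → ℝ),
      (∀ y ∈ T.Ω, C.SmAt f y) → ∀ z ∈ U T, ∀ p ∈ closedBall T.a₀ R₁ ×ˢ S,
        T.Ψ (C.pt T.g T.a z) = p → (C.om A f T.g T.a z).PosSemidef →
        c * (‖(jm (Θ T e) z).det‖ ^ 2 * (cHess (fun w => u T A f (w, p.2)) p.1).trace.re) ≤
          Xi (XF T e) (e (.inl l₀)) (C.om A f) (C.pt T.g T.a z) * (cHess (C.ρ T.a) z).det.re := by
  have h1 := (jg.cf_pbs _ (fun y => (T.Ψ y).1) _ T.Ψ.open_source fun γ a z hz h =>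
    analyticAt_fst.comp (T.holΨ γ a z hz h)).2 T.g T.a
  have h2 : cz T '' (closedBall T.a₀ R₁ ×ˢ S) ⊆ U T := by
    rintro _ ⟨p, hp, rfl⟩
    exact cz_mem (box T hR hS' hp).1
  obtain ⟨c, hc, h3⟩ := rho_dom T.a (((isCompact_closedBall T.a₀ R₁).prod hS).image_of_continuousOn
    (f := cz T) fun p hp => (T.holΨ' p (T.tgt ▸ (box T hR hS' hp).1)).continuousAt.continuousWithinAt)
    (fun z hz => (h2 hz).1) ((cf_cont h1).mono h2) fun z hz => h1.herm z (h2 hz)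
  refine ⟨(T.d - 1).factorial * T.q.factorial / c ^ n, by positivity, ?_⟩
  rintro A f hf z hz _ hp rfl hom
  obtain ⟨h4, h5⟩ := box T hR hS' hp
  have h6 : C.pt T.g T.a z ∈ T.Ω := T.Ψ.left_inv hz.2 ▸ h5
  have h7 := jm_gq e (T.holΨ _ _ z hz.1 hz.2)
  have h8 := om_eq e (A := A) jb hz (hf _ h6)
  obtain ⟨h9, h10⟩ := det_real (C.ρ_pos _ _ hz.1)
  rw [tr_eq e jb h4 (hf _ h5), Xi, jg.mD_pt _ _ _ z hz.1 fun i => (cf_X T e jg _ hf i).1 _ h6, h10,
    Complex.div_ofReal_re, Complex.ofReal_re, div_mul_cancel₀ _ h9.ne']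
  change jm (Θ T e) z = _ at h7
  rw [h7] at h8
  rw [h7]
  refine (alg e ja l₀ hc (h3 z ⟨_, hp, cz_Ψ hz⟩) (h8 ▸ hom)).trans_eq (congrArg md (funext fun i => ?_))
  exact (slots e (fun (M : C.Fm) M' => M T.g T.a z = M') _
    (congrArg (cHess · z) (funext fun w => by simp)) (pbs_eq T hz (hS' hp.2)) h8 i).symm

end E6

open E6

variable [Countable Γ] [T2Space E] [MeasurableSpace E] [BorelSpace E]

/-- K6e, uniformly in the set of parameters -/
theorem lower (ja : JA) (jb : JB) (jg : JG C) {μ : Measure E} (hμ : C.Vol μ) (T : FB C)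
    (e : Fin T.d ⊕ Fin T.q ≃ Fin n) (l₀ : Fin T.d) {R₁ : ℝ}
    (hR : closedBall T.a₀ R₁ ⊆ ball 0 T.RN) {S₀ : Set (Cm T.q)} (hS₀ : IsCompact S₀)
    (hS₀' : S₀ ⊆ ball T.t₀ T.R) : ∃ c > (0 : ℝ), ∀ S ⊆ S₀, IsCompact S →
      ∀ (A : ℝ) (f : E → ℝ) (J : Cm T.q → ℝ≥0∞), (∀ y ∈ T.Ω, C.SmAt f y) →
      (∀ γ a, ∀ z ∈ C.B 4 a, C.pt γ a z ∈ T.Ω → (C.om A f γ a z).PosSemidef) →
      (∀ t, J t = ∫⁻ a in ball T.a₀ R₁, ENNReal.ofReal
        (cHess (fun w => u T A f (w, t)) a).trace.re) →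
      ENNReal.ofReal c * ∫⁻ t in S, J t ≤ ∫⁻ y in {y ∈ T.Ω | T.s y ∈ S},
          ENNReal.ofReal (Xi (XF T e) (e (.inl l₀)) (C.om A f) y) ∂μ := by
  classical
  obtain ⟨c, hc, hp⟩ := ptw T e ja jb jg l₀ hR hS₀ hS₀'
  refine ⟨c, hc, fun S hSS hS A f J hf hom hJ => ?_⟩
  have hS' := hSS.trans hS₀'
  obtain rfl := funext hJ
  set g : Cm T.d × Cm T.q → ℝ≥0∞ := fun p =>
    ENNReal.ofReal (cHess (fun w => u T A f (w, p.2)) p.1).trace.re with hg
  set P := ball T.a₀ R₁ ×ˢ S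
  set M := {y ∈ T.Ω | T.s y ∈ S}
  have hP : MeasurableSet P := measurableSet_ball.prod hS.measurableSet
  have hP' : P ⊆ closedBall T.a₀ R₁ ×ˢ S := prod_mono ball_subset_closedBall Subset.rfl
  have hb := fun p (h : p ∈ P) => box T hR hS' (hP' h)
  have h1 : AEMeasurable g ((volume.prod volume).restrict P) := by
    refine ContinuousOn.aemeasurable (ContinuousOn.congr (fun p h => ?_) fun p h =>
      congrArg (fun x : ℂ => ENNReal.ofReal x.re) (tr_eq e jb (hb p h).1 (hf _ (hb p h).2))) hP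
    have h2 := (cont_cHess (u_sm e (A := A) (hb p h).1 (hf _ (hb p h).2))).comp
      (gq e).continuous.continuousAt
    exact (ENNReal.continuous_ofReal.continuousAt.comp (Complex.continuous_re.continuousAt.comp
      (tendsto_finsetSum _ fun l _ =>
        continuousAt_pi.1 (continuousAt_pi.1 h2 _) _))).continuousWithinAt
  have hM : MeasurableSet M := by
    have h2 : IsOpen (T.Ω ∩ T.s ⁻¹' Sᶜ) := ContinuousOn.isOpen_inter_preimage
      (fun y hy => (T.s_cont hy).continuousWithinAt) T.opn hS.isClosed.isOpen_compl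
    refine (congrArg MeasurableSet (Set.ext fun y => ?_)).mp
      (T.opn.measurableSet.diff h2.measurableSet)
    exact ⟨fun h => ⟨h.1, not_not.1 fun h' => h.2 ⟨h.1, h'⟩⟩, fun h => ⟨h.1, fun h' => h'.2 h.2⟩⟩
  set F : E → ℝ≥0∞ := M.indicator fun y =>
    ENNReal.ofReal (Xi (XF T e) (e (.inl l₀)) (C.om A f) y) with hF
  have hFm : Measurable F := by
    rw [hF, ← piecewise_eq_indicator]
    refine ContinuousOn.measurable_piecewise ?_ continuousOn_const hM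
    exact ENNReal.continuous_ofReal.comp_continuousOn (Complex.continuous_re.comp_continuousOn
      ((jg.mD_cont _ _ T.opn (fun i => (cf_X T e jg _ hf i).1) fun i γ a =>
        cf_cont ((cf_X T e jg _ hf i).2 γ a)).mono (sep_subset _ _)))
  have hQ : MeasurableSet ((gq e).symm ⁻¹' P) := hP.preimage (gq e).symm.continuous.measurable
  have hQ' : (gq e).symm ⁻¹' P ⊆ Θ T e '' U T := fun x hx =>
    ⟨_, cz_mem (hb _ hx).1, by rw [Θ_cz e (hb _ hx).1, (gq e).apply_symm_apply]⟩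
  calc ENNReal.ofReal c * ∫⁻ t in S, ∫⁻ a in ball T.a₀ R₁, g (a, t)
      = ENNReal.ofReal c * ∫⁻ x in Θ T e '' U T,
          ((gq e).symm ⁻¹' P).indicator (fun x => g ((gq e).symm x)) x := by
        rw [← setLIntegral_prod_symm g h1, setLIntegral_indicator hQ, inter_eq_left.2 hQ',
          (mp e).setLIntegral_comp_preimage_emb (gq e).symm.toHomeomorph.measurableEmbedding]
        rfl
    _ ≤ ∫⁻ z in U T, F (C.pt T.g T.a z) * ENNReal.ofReal (cHess (C.ρ T.a) z).det.re := by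
        rw [jb.cov n _ _ (U_open T) (Θ_an e) (Θ_inj e), ← lintegral_const_mul' _ _ ENNReal.ofReal_ne_top]
        refine setLIntegral_mono' (U_open T).measurableSet fun z hz => ?_
        by_cases h : Θ T e z ∈ (gq e).symm ⁻¹' P
        · rw [indicator_of_mem h]
          rw [mem_preimage, Θ, (gq e).symm_apply_apply] at h
          have h2 : C.pt T.g T.a z ∈ T.Ω := T.Ψ.left_inv hz.2 ▸ (hb _ h).2
          have h3 : C.pt T.g T.a z ∈ M := ⟨h2, (T.base _ hz.2 (hS' h.2)).2 ▸ h.2⟩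
          rw [hF, indicator_of_mem h3, ← ENNReal.ofReal_mul' (det_real (C.ρ_pos _ _ hz.1)).1.le,
            hg, ← ENNReal.ofReal_mul (sq_nonneg _), ← ENNReal.ofReal_mul hc.le]
          refine ENNReal.ofReal_le_ofReal ?_
          simpa only [Θ, ContinuousLinearEquiv.symm_apply_apply] using
            hp A f hf z hz _ (prod_mono Subset.rfl hSS (hP' h)) rfl (hom _ _ z hz.1 h2)
        · simp [indicator_of_notMem h]
    _ ≤ ∫⁻ y in C.pt T.g T.a '' C.B 4 T.a, F y ∂μ := by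
        rw [hμ _ _ F hFm]
        exact lintegral_mono_set (sep_subset _ _)
    _ ≤ _ := by
        rw [← lintegral_indicator hM]
        exact setLIntegral_le_lintegral _ _

end Vale.Agent.P284Y.K6
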