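import Vale.Agent.P284Y.K6.E
import Vale.Agent.P284Z.K.K6c
import Mathlib.MeasureTheory.Covering.BesicovitchVectorSpace

/-!
# P284Y, row K6': the mass of a quasi-plurisubharmonic function on almost every plaque is bounded
-/

set_option linter.all false

open scoped ContDiff Topology ComplexOrder ENNReal
open Filter Set Function Metric MeasureTheory

noncomputable section

namespace Vale.Agent.P284Y.K6

open Vale.Agent.P272.K Vale.Agent.P284Z Vale.Agent.P284Z.J Vale.Agent.P284Z.K Real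
open K6e (gq)
open E6

variable {n : ℕ} {Γ E : Type} [Group Γ] [TopologicalSpace E] [MulAction Γ E] {C : Cov n Γ E}

/-- the mass on the plaque `t` -/
def Jm (T : FB C) (R₁ : ℝ) (f : E → ℝ) (t : Cm T.q) : ℝ≥0∞ :=
  ∫⁻ a in ball T.a₀ R₁, ENNReal.ofReal (cHess (fun w => u T 1 f (w, t)) a).trace.re

theorem tr_cont (jb : JB) (T : FB C) {f : E → ℝ} (hf : ∀ y, C.SmAt f y) :
    ContinuousOn (fun p : Cm T.d × Cm T.q =>
      ENNReal.ofReal (cHess (fun w => u T 1 f (w, p.2)) p.1).trace.re) T.Ψ.target := by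
  let e : Fin T.d ⊕ Fin T.q ≃ Fin n := finSumFinEquiv.trans (finCongr T.dim)
  refine ContinuousOn.congr (fun p h => ?_) fun p h =>
    congrArg (fun x : ℂ => ENNReal.ofReal x.re) (tr_eq e jb h (hf _))
  have h2 := (cont_cHess (u_sm e (A := 1) h (hf _))).comp (gq e).continuous.continuousAt
  exact (ENNReal.continuous_ofReal.continuousAt.comp (Complex.continuous_re.continuousAt.comp
    (tendsto_finsetSum _ fun l _ =>
      continuousAt_pi.1 (continuousAt_pi.1 h2 _) _))).continuousWithinAt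

theorem Jm_lsc (jb : JB) (T : FB C) {R₁ : ℝ} (hR : closedBall T.a₀ R₁ ⊆ ball 0 T.RN) {f : E → ℝ}
    (hf : ∀ y, C.SmAt f y) {t : Cm T.q} (ht : t ∈ ball T.t₀ T.R) {b : ℝ≥0∞} (hb : b < Jm T R₁ f t) :
    ∀ᶠ t' in 𝓝 t, b < Jm T R₁ f t' := by
  have hc := tr_cont jb T hf
  have hm : ∀ t' ∈ ball T.t₀ T.R, ∀ a ∈ ball T.a₀ R₁, (a, t') ∈ T.Ψ.target := fun t' h' a ha =>
    (box T hR Subset.rfl (p := (a, t')) ⟨ball_subset_closedBall ha, h'⟩).1
  have h1 := lintegral_liminf_le' (μ := volume.restrict (ball T.a₀ R₁))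
    (u := 𝓝 (⟨t, ht⟩ : ball T.t₀ T.R)) (f := fun (i : ball T.t₀ T.R) a =>
      ENNReal.ofReal (cHess (fun w => u T 1 f (w, i.1)) a).trace.re) fun i =>
    (hc.comp (f := fun a => (a, i.1)) (by fun_prop) fun a ha => hm _ i.2 a ha).aemeasurable
      measurableSet_ball
  have h2 : Jm T R₁ f t ≤ liminf (fun i : ball T.t₀ T.R => Jm T R₁ f i.1) (𝓝 ⟨t, ht⟩) := by
    refine le_trans (setLIntegral_mono' measurableSet_ball fun a ha => ?_) h1
    refine (Tendsto.liminf_eq ?_).ge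
    exact (hc.continuousAt (T.Ψ.open_target.mem_nhds (hm t ht a ha))).tendsto.comp
      (f := fun i : ball T.t₀ T.R => (a, i.1))
      (Continuous.tendsto' (by fun_prop) _ _ rfl)
  have h3 := (eventually_nhds_subtype_iff (ball T.t₀ T.R) ⟨t, ht⟩ fun t' => b < Jm T R₁ f t').1
    (eventually_lt_of_lt_liminf (hb.trans_le h2))
  rwa [isOpen_ball.nhdsWithin_eq ht] at h3

variable [Countable Γ] [T2Space E] [MeasurableSpace E] [BorelSpace E]

theorem leaf_bound (ja : JA) (jb : JB) (jg : JG C) (T : FB C) (l₀ : Fin T.d) {R₁ : ℝ}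
    (hR : closedBall T.a₀ R₁ ⊆ ball 0 T.RN) {S : Set (Cm T.q)} (hS : IsCompact S)
    (hS' : S ⊆ ball T.t₀ T.R) (hB : T.Bdd S) (hF : T.Fv S) :
    ∀ᵐ t ∂volume.restrict S, ∃ M < (⊤ : ℝ≥0∞), ∀ (f : E → ℝ) (B : ℝ), (∀ y, C.SmAt f y) →
      (∀ γ a, ∀ z ∈ C.B 4 a, (C.om 1 f γ a z).PosSemidef) → (∀ y, |f y| ≤ B) →
      Jm T R₁ f t ≤ M := by
  obtain ⟨μ, hμ⟩ := jg.vol
  let e : Fin T.d ⊕ Fin T.q ≃ Fin n := finSumFinEquiv.trans (finCongr T.dim)
  obtain ⟨c, hc, hlow⟩ := lower ja jb jg hμ T e l₀ hR hS hS'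
  have hL : ∀ S' ⊆ S, IsCompact S' → LF T.Ω T.En (μ.restrict {y ∈ T.Ω | T.s y ∈ S'}) (XF T e)
      (e (.inl l₀)) := fun S' h1 h2 => by
    have hT : ∀ γ a, T.Tub S' γ a ⊆ T.Tub S γ a := fun γ a z hz => ⟨hz.1, hz.2.1, h1 hz.2.2⟩
    exact lf_of ja jb jg hμ T e l₀ h2 (h1.trans hS') (hB.imp fun G hG => ⟨hG.1, fun γ hγ a =>
      measure_mono_null (hT γ a) (hG.2 γ hγ a)⟩) fun e γ a =>
        (lintegral_mono_set (hT γ a)).trans_lt (hF e γ a)
  set w : E → ℝ≥0∞ := fun y => ENNReal.ofReal (Xi (XF T e) (e (.inl l₀)) (C.om 1 0) y)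
  set ν := (μ.restrict {y ∈ T.Ω | T.s y ∈ S}).withDensity w
  have hU := A6.tube_meas T hS.isClosed
  have hs : AEMeasurable T.s ν := (ContinuousOn.aemeasurable
    (fun y hy => (T.s_cont hy.1).continuousWithinAt) hU).mono_ac (withDensity_absolutelyContinuous _ _)
  have : IsFiniteMeasure ν :=
    isFiniteMeasure_withDensity (hL S Subset.rfl hS).int.lintegral_lt_top.ne
  have : IsFiniteMeasure (volume.restrict S) := isFiniteMeasure_restrict.2 hS.measure_lt_top.ne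
  filter_upwards [Besicovitch.ae_tendsto_rnDeriv (ν.map T.s) (volume.restrict S),
    (ν.map T.s).rnDeriv_lt_top (volume.restrict S),
    (Besicovitch.vitaliFamily (volume.restrict S)).ae_eventually_measure_pos,
    ae_restrict_mem hS.measurableSet] with t h1 h2 h3 ht
  have hc' : ENNReal.ofReal c ≠ 0 := (ENNReal.ofReal_pos.2 hc).ne'
  refine ⟨2 * (ν.map T.s).rnDeriv (volume.restrict S) t / ENNReal.ofReal c,
    ENNReal.div_lt_top (ENNReal.mul_ne_top (by simp) h2.ne) hc', fun f B f1 f2 f3 => ?_⟩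
  refine le_of_forall_lt_imp_le_of_dense fun b hb => ?_
  rw [ENNReal.le_div_iff_mul_le (.inl hc') (.inl ENNReal.ofReal_ne_top)]
  obtain ⟨δ, hδ, h4⟩ := nhds_basis_closedBall.eventually_iff.1 (Jm_lsc jb T hR f1 (hS' ht) hb)
  refine ge_of_tendsto (ENNReal.Tendsto.const_mul (a := 2) h1 (.inr (by simp))) ?_
  filter_upwards [(Besicovitch.tendsto_filterAt _ t).eventually h3, Ioo_mem_nhdsGT hδ] with r h5 h6
  have k1 : IsCompact (closedBall t r ∩ S) := hS.inter_left isClosed_closedBall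
  have kL := hL _ inter_subset_right k1
  have kU := A6.tube_meas T k1.isClosed
  have k2 := (hlow _ inter_subset_right k1 1 f (Jm T R₁ f) (fun y _ => f1 y)
    (fun γ a z hz _ => f2 γ a z hz) fun _ => rfl).trans (upper (B := B) kL (cut_of jb jg T kL)
      zero_le_one (fun y _ => f1 y) (fun y hy => Xi_nonneg (kL.ps hy) (f2 _ _ _ (ch_mem y)))
      (ae_of_all _ f3))
  have k3 : ∫⁻ y in {y ∈ T.Ω | T.s y ∈ closedBall t r ∩ S}, w y ∂μ ≤ ν.map T.s (closedBall t r) := by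
    refine le_trans ?_ ((withDensity_apply_le w _).trans (Measure.le_map_apply hs _))
    refine le_trans (le_of_eq ?_) (lintegral_mono_set
      (s := {y ∈ T.Ω | T.s y ∈ closedBall t r ∩ S}) fun y hy => hy.2.1)
    rw [Measure.restrict_restrict kU, inter_eq_left.2 (show {y ∈ T.Ω | T.s y ∈ closedBall t r ∩ S} ⊆
      {y ∈ T.Ω | T.s y ∈ S} from fun y hy => ⟨hy.1, hy.2.2⟩)]
  rw [mul_one, ENNReal.ofReal_mul zero_le_two, ofReal_integral_eq_lintegral_ofReal kL.int
    ((ae_restrict_mem kU).mono fun y hy => w_nonneg (kL.ps hy.1)), ENNReal.ofReal_ofNat] at k2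
  have k4 : b * volume.restrict S (closedBall t r) ≤ ∫⁻ t' in closedBall t r ∩ S, Jm T R₁ f t' := by
    rw [Measure.restrict_apply measurableSet_closedBall, ← setLIntegral_const]
    exact setLIntegral_mono' k1.measurableSet fun t' h' =>
      (h4 (closedBall_subset_closedBall h6.2.le h'.1)).le
  rw [← mul_div_assoc, ENNReal.le_div_iff_mul_le (.inl h5.ne') (.inl (measure_ne_top _ _)),
    mul_right_comm, mul_comm]
  exact ((mul_le_mul_right k4 _).trans k2).trans (mul_le_mul_right k3 _)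

end Vale.Agent.P284Y.K6
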